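import Vale.Agent.P262.Exact.Main

namespace Vale.Agent.Results.P262.SteinitzSqrtD

/-- For an absolute constant `C`, every zero-sum family of vectors of the Euclidean unit
ball of `ℝ^d` can be ordered so that all partial sums have norm at most `C √d`. -/
theorem result : ∃ C : ℝ, 0 < C ∧ ∀ d N : ℕ, 1 ≤ d →
    ∀ v : Fin N → EuclideanSpace ℝ (Fin d), (∀ i, ‖v i‖ ≤ 1) → ∑ i, v i = 0 →
      ∃ π : Equiv.Perm (Fin N), ∀ k : ℕ,
        ‖∑ i with i.val < k, v (π i)‖ ≤ C * Real.sqrt d :=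
  Vale.Agent.P262.Exact.steinitz_sqrt

end Vale.Agent.Results.P262.SteinitzSqrtD
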